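import Vale.Agent.P367.Gap.Defs

/-! Concentration of the ground state energy of the SK model (Efron-Stein inequality for Gaussian
products). -/

open MeasureTheory ProbabilityTheory Vale.Agent.P367.Gap Filter Topology

namespace Vale.Agent.P367.H517

/-- `f` is `c`-Lipschitz in each coordinate separately. -/
def CL {ι : Type*} (c : ℝ) (f : (ι → ℝ) → ℝ) : Prop :=
  ∀ (i : ι) (x y : ι → ℝ), (∀ j, j ≠ i → x j = y j) → |f x - f y| ≤ c * |x i - y i|

theorem gm : MemLp (fun t : ℝ => t) 2 (gaussianReal 0 1) := by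
  have h : MemLp id 2 (gaussianReal 0 1) := memLp_id_gaussianReal' 2 (by norm_num)
  exact h

section

variable {ι : Type*} [Fintype ι] {c : ℝ} {f : (ι → ℝ) → ℝ}

theorem CL.growth (h : CL c f) (x y : ι → ℝ) : |f x - f y| ≤ c * ∑ i, |x i - y i| := by
  classical
  have key : ∀ s : Finset ι, |f (s.piecewise x y) - f y| ≤ c * ∑ i ∈ s, |x i - y i| := by
    intro s
    induction s using Finset.induction_on with
    | empty => simp
    | insert i s hi ih =>
      rw [Finset.sum_insert hi, mul_add]
      have h1 := h i ((insert i s).piecewise x y) (s.piecewise x y) (by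
        intro j hj
        by_cases hjs : j ∈ s
        · simp [Finset.piecewise, hjs]
        · simp [Finset.piecewise, hjs, hj])
      have h2 : (insert i s).piecewise x y i = x i := by simp
      have h3 : s.piecewise x y i = y i := by simp [hi]
      rw [h2, h3] at h1
      exact (abs_sub_le _ (f (s.piecewise x y)) _).trans (add_le_add h1 ih)
  simpa using key Finset.univ

theorem CL.continuous (h : CL c f) : Continuous f := by
  rw [continuous_iff_continuousAt]
  intro y
  unfold ContinuousAt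
  rw [tendsto_iff_norm_sub_tendsto_zero]
  have h1 : Tendsto (fun x : ι → ℝ => c * ∑ i, |x i - y i|) (𝓝 y) (𝓝 0) := by
    have h2 : Continuous (fun x : ι → ℝ => c * ∑ i, |x i - y i|) := by fun_prop
    have h3 := h2.tendsto y
    simpa using h3
  exact squeeze_zero (fun x => norm_nonneg _) (fun x => h.growth x y) h1

theorem CL.memLp (h : CL c f) : MemLp f 2 (Measure.pi fun _ : ι => gaussianReal 0 1) := by
  have h1 : ∀ i : ι, MemLp (fun x : ι → ℝ => x i) 2
      (Measure.pi fun _ : ι => gaussianReal 0 1) := fun i => by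
    have h0 := gm.comp_measurePreserving (measurePreserving_eval (fun _ : ι => gaussianReal 0 1) i)
    exact h0
  have h2a : MemLp (fun _ : ι → ℝ => |f 0|) 2 (Measure.pi fun _ : ι => gaussianReal 0 1) :=
    memLp_const _
  have h2b : MemLp (fun x : ι → ℝ => ∑ i, |x i|) 2
      (Measure.pi fun _ : ι => gaussianReal 0 1) := by
    have h0 : ∀ i ∈ (Finset.univ : Finset ι), MemLp (fun x : ι → ℝ => |x i|) 2
      (Measure.pi fun _ : ι => gaussianReal 0 1) := fun i _ => (h1 i).abs
    exact memLp_finsetSum Finset.univ h0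
  have h2c : MemLp (fun x : ι → ℝ => c * ∑ i, |x i|) 2
      (Measure.pi fun _ : ι => gaussianReal 0 1) := h2b.const_mul c
  have h2 := h2a.add h2c
  refine h2.mono h.continuous.aestronglyMeasurable (Eventually.of_forall fun x => ?_)
  have h3 := h.growth x 0
  simp only [Pi.zero_apply, sub_zero] at h3
  have h4 : |f x| ≤ |f 0| + c * ∑ i, |x i| := by
    have := abs_sub_abs_le_abs_sub (f x) (f 0)
    linarith
  show |f x| ≤ |(|f 0| + c * ∑ i, |x i|)|
  exact h4.trans (le_abs_self _)

theorem CL.integrable (h : CL c f) : Integrable f (Measure.pi fun _ : ι => gaussianReal 0 1) :=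
  h.memLp.integrable (by norm_num)

theorem CL.integrable_sq (h : CL c f) (m : ℝ) :
    Integrable (fun x => (f x - m) ^ 2) (Measure.pi fun _ : ι => gaussianReal 0 1) :=
  (h.memLp.sub (memLp_const m)).integrable_sq

end

theorem integral_sq_gauss : ∫ t : ℝ, t ^ 2 ∂(gaussianReal 0 1) = 1 := by
  have hh : MemLp (id : ℝ → ℝ) 2 (gaussianReal 0 1) := memLp_id_gaussianReal' 2 (by norm_num)
  have h := variance_eq_sub hh
  rw [variance_id_gaussianReal] at h
  have h0 : ∫ t : ℝ, id t ∂(gaussianReal 0 1) = 0 := integral_id_gaussianReal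
  rw [h0] at h
  simpa using h.symm

/-- the one-dimensional inequality -/
theorem one_dim {c : ℝ} {h : ℝ → ℝ} (hh : ∀ s t, |h s - h t| ≤ c * |s - t|) (m : ℝ) :
    Integrable h (gaussianReal 0 1) ∧ Integrable (fun t => (h t - m) ^ 2) (gaussianReal 0 1) ∧
      ∫ t, (h t - m) ^ 2 ∂(gaussianReal 0 1) ≤
        c ^ 2 + (∫ t, h t ∂(gaussianReal 0 1) - m) ^ 2 := by
  have hid : MemLp (fun t : ℝ => t) 2 (gaussianReal 0 1) := gm
  have hc : Continuous h := by
    rw [continuous_iff_continuousAt]
    intro y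
    unfold ContinuousAt
    rw [tendsto_iff_norm_sub_tendsto_zero]
    have h1 : Tendsto (fun x : ℝ => c * |x - y|) (𝓝 y) (𝓝 0) := by
      have h2 : Continuous (fun x : ℝ => c * |x - y|) := by fun_prop
      have h3 := h2.tendsto y
      simpa using h3
    exact squeeze_zero (fun x => norm_nonneg _) (fun x => hh x y) h1
  have hm : MemLp h 2 (gaussianReal 0 1) := by
    have h2a : MemLp (fun _ : ℝ => |h 0|) 2 (gaussianReal 0 1) := memLp_const _
    have h2b : MemLp (fun t : ℝ => |t|) 2 (gaussianReal 0 1) := hid.abs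
    have h2c : MemLp (fun t : ℝ => c * |t|) 2 (gaussianReal 0 1) := h2b.const_mul c
    have h2 := h2a.add h2c
    refine h2.mono hc.aestronglyMeasurable (Eventually.of_forall fun x => ?_)
    have h3 := hh x 0
    simp only [sub_zero] at h3
    have h4 : |h x| ≤ |h 0| + c * |x| := by
      have := abs_sub_abs_le_abs_sub (h x) (h 0)
      linarith
    show |h x| ≤ |(|h 0| + c * |x|)|
    exact h4.trans (le_abs_self _)
  have hi : Integrable h (gaussianReal 0 1) := hm.integrable (by norm_num)
  refine ⟨hi, (hm.sub (memLp_const m)).integrable_sq, ?_⟩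
  set a := h 0 with ha
  set H := ∫ t, h t ∂(gaussianReal 0 1) with hH
  have i1 : Integrable (fun t => (h t - a) ^ 2) (gaussianReal 0 1) :=
    (hm.sub (memLp_const a)).integrable_sq
  have i2 : Integrable (fun t => 2 * (a - m) * (h t - a)) (gaussianReal 0 1) :=
    (hi.sub (integrable_const a)).const_mul _
  have e1 : ∀ t, (h t - m) ^ 2 = (h t - a) ^ 2 + 2 * (a - m) * (h t - a) + (a - m) ^ 2 := by
    intro t; ring
  have e2 : ∫ t, (h t - a) ∂(gaussianReal 0 1) = H - a := by
    rw [integral_sub hi (integrable_const a)]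
    simp [hH]
  have e3 : ∫ t, (h t - m) ^ 2 ∂(gaussianReal 0 1) =
      ∫ t, (h t - a) ^ 2 ∂(gaussianReal 0 1) + 2 * (a - m) * (H - a) + (a - m) ^ 2 := by
    simp only [e1]
    have i12 : Integrable (fun t => (h t - a) ^ 2 + 2 * (a - m) * (h t - a)) (gaussianReal 0 1) :=
      i1.add i2
    rw [integral_add i12 (integrable_const _), integral_add i1 i2, integral_const_mul, e2]
    simp
  have e4 : ∫ t, (h t - a) ^ 2 ∂(gaussianReal 0 1) ≤ c ^ 2 := by
    have h5 : ∫ t, (h t - a) ^ 2 ∂(gaussianReal 0 1) ≤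
        ∫ t, c ^ 2 * t ^ 2 ∂(gaussianReal 0 1) := by
      refine integral_mono i1 (hid.integrable_sq.const_mul _) fun t => ?_
      have h6 := hh t 0
      simp only [sub_zero] at h6
      have h7 := pow_le_pow_left₀ (abs_nonneg _) h6 2
      rw [sq_abs, mul_pow, sq_abs] at h7
      exact h7
    rw [integral_const_mul, integral_sq_gauss, mul_one] at h5
    exact h5
  rw [e3]
  nlinarith [sq_nonneg (H - a)]

theorem var_fin {c : ℝ} : ∀ (N : ℕ) (f : (Fin N → ℝ) → ℝ), CL c f →
    ∫ x, (f x - ∫ y, f y ∂(Measure.pi fun _ : Fin N => gaussianReal 0 1)) ^ 2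
      ∂(Measure.pi fun _ : Fin N => gaussianReal 0 1) ≤ N * c ^ 2
  | 0, f, _ => by
    have h1 : ∀ x : Fin 0 → ℝ, f x = f 0 := fun x => congrArg f (Subsingleton.elim _ _)
    simp only [h1]
    simp
  | N + 1, f, hf => by
    set γ : Measure ℝ := gaussianReal 0 1 with hγ
    set π : Measure (Fin N → ℝ) := Measure.pi fun _ : Fin N => gaussianReal 0 1 with hπ
    set E := MeasurableEquiv.piFinSuccAbove (fun _ : Fin (N + 1) => ℝ) 0 with hE
    have mp : MeasurePreserving E (Measure.pi fun _ : Fin (N + 1) => gaussianReal 0 1)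
        (γ.prod π) := measurePreserving_piFinSuccAbove (fun _ => gaussianReal 0 1) 0
    have mps := mp.symm E
    have hcons0 : ∀ (t : ℝ) (x : Fin N → ℝ), E.symm (t, x) 0 = t := fun t x => by
      simp [hE, MeasurableEquiv.piFinSuccAbove]
    have hconsS : ∀ (t : ℝ) (x : Fin N → ℝ) (i : Fin N), E.symm (t, x) i.succ = x i :=
      fun t x i => by
        simp [hE, MeasurableEquiv.piFinSuccAbove]
    have hint : ∀ F : (Fin (N + 1) → ℝ) → ℝ,
        ∫ x, F x ∂(Measure.pi fun _ : Fin (N + 1) => gaussianReal 0 1) =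
          ∫ p, F (E.symm p) ∂(γ.prod π) := fun F =>
      (mps.integral_comp E.symm.measurableEmbedding F).symm
    have hfst : ∀ x : Fin N → ℝ, ∀ s t, |f (E.symm (s, x)) - f (E.symm (t, x))| ≤ c * |s - t| := by
      intro x s t
      have h1 := hf 0 (E.symm (s, x)) (E.symm (t, x)) (by
        intro j hj
        obtain ⟨k, rfl⟩ := Fin.exists_succ_eq.2 hj
        rw [hconsS, hconsS])
      rwa [hcons0, hcons0] at h1
    set G : (Fin N → ℝ) → ℝ := fun x => ∫ t, f (E.symm (t, x)) ∂γ with hG
    have hGCL : CL c G := by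
      intro i x y hxy
      have h1 : ∀ t, |f (E.symm (t, x)) - f (E.symm (t, y))| ≤ c * |x i - y i| := by
        intro t
        have h2 := hf i.succ (E.symm (t, x)) (E.symm (t, y)) (by
          intro j hj
          rcases Fin.eq_zero_or_eq_succ j with rfl | ⟨k, rfl⟩
          · rw [hcons0, hcons0]
          · rw [hconsS, hconsS]
            exact hxy k fun hk => hj (by rw [hk]))
        rwa [hconsS, hconsS] at h2
      have hx := (one_dim (hfst x) 0).1
      have hy := (one_dim (hfst y) 0).1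
      show |(∫ t, f (E.symm (t, x)) ∂γ) - ∫ t, f (E.symm (t, y)) ∂γ| ≤ _
      rw [← integral_sub hx hy]
      refine (abs_integral_le_integral_abs).trans ?_
      refine (integral_mono (hx.sub hy).abs (integrable_const (c * |x i - y i|)) h1).trans ?_
      simp
    set m := ∫ y, f y ∂(Measure.pi fun _ : Fin (N + 1) => gaussianReal 0 1) with hm
    have hfi : Integrable (fun p => f (E.symm p)) (γ.prod π) :=
      (mps.integrable_comp_emb E.symm.measurableEmbedding).2 hf.integrable
    have hfi2 : Integrable (fun p => (f (E.symm p) - m) ^ 2) (γ.prod π) :=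
      (mps.integrable_comp_emb E.symm.measurableEmbedding (g := fun x => (f x - m) ^ 2)).2
        (hf.integrable_sq m)
    have hmG : m = ∫ x, G x ∂π := by
      rw [hm, hint f, integral_prod_symm _ hfi]
    have hvar := var_fin N G hGCL
    rw [hint (fun x => (f x - m) ^ 2), integral_prod_symm _ hfi2]
    have h2 : ∫ x, ∫ t, (f (E.symm (t, x)) - m) ^ 2 ∂γ ∂π ≤ ∫ x, (c ^ 2 + (G x - m) ^ 2) ∂π := by
      refine integral_mono ?_ ((integrable_const _).add (hGCL.integrable_sq m)) fun x =>
        (one_dim (hfst x) m).2.2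
      exact hfi2.integral_prod_right
    refine h2.trans ?_
    rw [integral_add (integrable_const _) (hGCL.integrable_sq m), hmG]
    simp only [integral_const, probReal_univ, smul_eq_mul, one_mul]
    push_cast
    linarith

theorem var_le {ι : Type*} [Fintype ι] {c : ℝ} {f : (ι → ℝ) → ℝ} (hf : CL c f) :
    ∫ x, (f x - ∫ y, f y ∂(Measure.pi fun _ : ι => gaussianReal 0 1)) ^ 2
      ∂(Measure.pi fun _ : ι => gaussianReal 0 1) ≤ Fintype.card ι * c ^ 2 := by
  classical
  set e : Fin (Fintype.card ι) ≃ ι := (Fintype.equivFin ι).symm with he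
  set E := MeasurableEquiv.piCongrLeft (fun _ : ι => ℝ) e with hE
  have mp : MeasurePreserving E (Measure.pi fun _ : Fin (Fintype.card ι) => gaussianReal 0 1)
      (Measure.pi fun _ : ι => gaussianReal 0 1) :=
    measurePreserving_piCongrLeft (fun _ : ι => gaussianReal 0 1) e
  have hval : ∀ (x : Fin (Fintype.card ι) → ℝ) (i : Fin (Fintype.card ι)), E x (e i) = x i :=
    fun x i => MeasurableEquiv.piCongrLeft_apply_apply (β := fun _ : ι => ℝ) e x i
  have hint : ∀ F : (ι → ℝ) → ℝ, ∫ x, F x ∂(Measure.pi fun _ : ι => gaussianReal 0 1) =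
      ∫ x, F (E x) ∂(Measure.pi fun _ : Fin (Fintype.card ι) => gaussianReal 0 1) := fun F =>
    (mp.integral_comp E.measurableEmbedding F).symm
  have hfE : CL c (fun x => f (E x)) := by
    intro i x y hxy
    have h1 := hf (e i) (E x) (E y) (by
      intro j hj
      obtain ⟨k, rfl⟩ := e.surjective j
      rw [hval, hval]
      exact hxy k fun hk => hj (by rw [hk]))
    rwa [hval, hval] at h1
  have h2 := var_fin _ _ hfE
  rw [hint f, hint]
  exact h2

theorem abs_spin (b : Bool) : |spin b| = 1 := by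
  cases b <;> simp [spin]

theorem cl_skEnergy {n : ℕ} (s : Conf n) :
    CL (Real.sqrt n)⁻¹ (fun J : Pair n → ℝ => skEnergy J s) := by
  classical
  intro e J J' h
  have h1 : skEnergy J s - skEnergy J' s =
      (Real.sqrt n)⁻¹ * ((J e - J' e) * (spin (s e.1.1) * spin (s e.1.2))) := by
    unfold skEnergy
    rw [← mul_sub, ← Finset.sum_sub_distrib, Finset.sum_eq_single e]
    · ring
    · intro b _ hb
      rw [h b hb]; ring
    · intro he
      exact absurd (Finset.mem_univ e) he
  show |skEnergy J s - skEnergy J' s| ≤ _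
  rw [h1, abs_mul, abs_mul, abs_mul, abs_spin, abs_spin, mul_one, mul_one,
    abs_of_nonneg (inv_nonneg.2 (Real.sqrt_nonneg _))]

theorem cl_sup (n : ℕ) :
    CL (Real.sqrt n)⁻¹ (fun J : Pair n → ℝ => ⨆ s : Conf n, skEnergy J s) := by
  have key : ∀ (e : Pair n) (J J' : Pair n → ℝ), (∀ j, j ≠ e → J j = J' j) →
      (⨆ s : Conf n, skEnergy J s) ≤ (⨆ s : Conf n, skEnergy J' s) +
        (Real.sqrt n)⁻¹ * |J e - J' e| := by
    intro e J J' h
    refine ciSup_le fun s => ?_
    have h1 := (abs_le.1 (cl_skEnergy s e J J' h)).2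
    have h2 : skEnergy J' s ≤ ⨆ s : Conf n, skEnergy J' s :=
      le_ciSup (f := fun s : Conf n => skEnergy J' s) (Set.finite_range _).bddAbove s
    simp only at h1
    linarith
  intro e J J' h
  have h1 := key e J J' h
  have h2 := key e J' J fun j hj => (h j hj).symm
  rw [abs_sub_comm (J' e)] at h2
  rw [abs_le]
  constructor <;> simp only <;> linarith

theorem int_sup (n : ℕ) :
    Integrable (fun J : Pair n → ℝ => ⨆ s : Conf n, skEnergy J s) (couplingLaw n) :=
  (cl_sup n).integrable

theorem card_pair (n : ℕ) : (Fintype.card (Pair n) : ℝ) ≤ (n : ℝ) ^ 2 := by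
  have h : Fintype.card (Pair n) ≤ Fintype.card (Fin n × Fin n) := Fintype.card_subtype_le _
  rw [Fintype.card_prod, Fintype.card_fin] at h
  calc (Fintype.card (Pair n) : ℝ) ≤ ((n * n : ℕ) : ℝ) := by exact_mod_cast h
    _ = (n : ℝ) ^ 2 := by push_cast; ring

theorem conc (n : ℕ) (hn : 1 ≤ n) :
    ∫ J, |(n : ℝ)⁻¹ * (⨆ s : Conf n, skEnergy J s) - groundValue n| ∂(couplingLaw n) ≤
      (Real.sqrt n)⁻¹ := by
  have hn0 : (0 : ℝ) < n := by exact_mod_cast hn
  have hs0 : 0 < Real.sqrt n := Real.sqrt_pos.2 hn0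
  have hss : Real.sqrt n * Real.sqrt n = n := Real.mul_self_sqrt hn0.le
  set F : (Pair n → ℝ) → ℝ := fun J => ⨆ s : Conf n, skEnergy J s with hF
  set m := ∫ J, F J ∂(couplingLaw n) with hm
  have : IsProbabilityMeasure (couplingLaw n) := by
    unfold couplingLaw; infer_instance
  have hCL : CL (Real.sqrt n)⁻¹ F := cl_sup n
  have hv : ∫ J, (F J - m) ^ 2 ∂(couplingLaw n) ≤ n := by
    have h1 := var_le hCL
    refine h1.trans ?_
    rw [inv_pow, Real.sq_sqrt hn0.le]
    calc (Fintype.card (Pair n) : ℝ) * (n : ℝ)⁻¹ ≤ (n : ℝ) ^ 2 * (n : ℝ)⁻¹ :=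
          mul_le_mul_of_nonneg_right (card_pair n) (inv_nonneg.2 hn0.le)
      _ = n := by field_simp
  have hi2 : Integrable (fun J => (F J - m) ^ 2) (couplingLaw n) := hCL.integrable_sq m
  have hi1 : Integrable F (couplingLaw n) := hCL.integrable
  have hab : ∫ J, |F J - m| ∂(couplingLaw n) ≤ Real.sqrt n := by
    have h2 : ∫ J, |F J - m| ∂(couplingLaw n) ≤
        ∫ J, ((2 * Real.sqrt n)⁻¹ * (F J - m) ^ 2 + Real.sqrt n / 2) ∂(couplingLaw n) := by
      refine integral_mono (hi1.sub (integrable_const m)).abs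
        ((hi2.const_mul _).add (integrable_const _)) fun J => ?_
      have h3 : 0 ≤ (|F J - m| - Real.sqrt n) ^ 2 := sq_nonneg _
      have h4 : |F J - m| * |F J - m| = (F J - m) ^ 2 := by rw [← sq, sq_abs]
      simp only
      rw [inv_mul_eq_div, div_add_div _ _ (by positivity) (by norm_num), le_div_iff₀ (by positivity)]
      nlinarith
    refine h2.trans ?_
    rw [integral_add (hi2.const_mul _) (integrable_const _), integral_const_mul]
    simp only [integral_const, probReal_univ, smul_eq_mul, one_mul]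
    calc (2 * Real.sqrt n)⁻¹ * ∫ J, (F J - m) ^ 2 ∂(couplingLaw n) + Real.sqrt n / 2 ≤
        (2 * Real.sqrt n)⁻¹ * n + Real.sqrt n / 2 := by
          gcongr
      _ = Real.sqrt n := by
          have : (2 * Real.sqrt n)⁻¹ * n = Real.sqrt n / 2 := by
            rw [inv_mul_eq_div, div_eq_div_iff (by positivity) (by norm_num)]
            nlinarith
          rw [this]; ring
  have he : ∀ J : Pair n → ℝ, |(n : ℝ)⁻¹ * F J - groundValue n| = (n : ℝ)⁻¹ * |F J - m| := by
    intro J
    have h5 : groundValue n = (n : ℝ)⁻¹ * m := rfl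
    rw [h5, ← mul_sub, abs_mul, abs_of_nonneg (inv_nonneg.2 hn0.le)]
  have h6 : ∫ J, |(n : ℝ)⁻¹ * F J - groundValue n| ∂(couplingLaw n) =
      (n : ℝ)⁻¹ * ∫ J, |F J - m| ∂(couplingLaw n) := by
    rw [← integral_const_mul]
    exact integral_congr_ae (Eventually.of_forall he)
  show ∫ J, |(n : ℝ)⁻¹ * F J - groundValue n| ∂(couplingLaw n) ≤ _
  rw [h6]
  calc (n : ℝ)⁻¹ * ∫ J, |F J - m| ∂(couplingLaw n) ≤ (n : ℝ)⁻¹ * Real.sqrt n :=
        mul_le_mul_of_nonneg_left hab (inv_nonneg.2 hn0.le)
    _ = (Real.sqrt n)⁻¹ := by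
        rw [inv_mul_eq_div, div_eq_iff hn0.ne', inv_mul_eq_div, eq_div_iff hs0.ne']
        exact hss

end Vale.Agent.P367.H517
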